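import Vale.Agent.P042.Power.Modulus

/-!
For each residue class of roots, a multiplier that detects a root far from the origin, or a nearby
exact root.
-/

namespace Vale.Agent.P042.Power

open Finset Polynomial

variable {h : ℤ[X]} {k : ℕ}

/-- The data attached to a class `κ` of roots modulo `M = p₀ ^ e * p ^ f`. -/
lemma exists_class_data {C K L M : ℤ} {p₀ p e f : ℕ} (hp₀ : p₀.Prime) (hp : p.Prime)
    (hne : p₀ ≠ p) (hM : M = (p₀ : ℤ) ^ e * (p : ℤ) ^ f)
    (hs₀ : ∀ n : ℤ, (p₀ : ℤ) ∣ h.eval n → ¬ (p₀ : ℤ) ∣ (derivative h).eval n)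
    (hs : ∀ n : ℤ, (p : ℤ) ∣ h.eval n → ¬ (p : ℤ) ∣ (derivative h).eval n)
    (he : e ≠ 0) (hf : f ≠ 0) (hk : 2 ≤ k) (hlc : 0 < h.leadingCoeff) (hC : 1 ≤ C)
    (hK : K = 4 * (C + h.leadingCoeff * k) * 3 ^ k + 100) (hL : 1 ≤ L)
    (hLM : K * L ^ k ≤ M)
    (hb1 : ∀ n : ℤ, |h.eval n| ≤ C * max 1 |n| ^ k)
    (hb3 : ∀ n : ℤ, |h.eval n - h.leadingCoeff * n ^ k| ≤ C * max 1 |n| ^ (k - 1))
    (hgood : ∀ n : ℤ, M ^ 2 ∣ h.eval n → |n| * (K * L ^ k) ≤ M ∨ K * M * L ≤ |n|) (κ : ℕ) :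
    ∃ a E : ℤ, ∀ n D : ℤ, 1 ≤ n → n ≤ 2 * M * L → h.eval n = M * D →
      n % (p₀ * p : ℤ) = κ →
      (∀ z : ℤ, M ≤ 8 * |a * D - M * z|) ∨ (D = E ∧ 4 * |h.eval n| < M ^ k) ∨
        ∃ t : ℤ, 1 ≤ t ∧ 4 * |h.eval n - h.leadingCoeff * M ^ k * t ^ k| < M ^ k := by
  classical
  have hc0 : 0 ≤ h.leadingCoeff * (k : ℤ) := mul_nonneg hlc.le (Int.natCast_nonneg k)
  have h3k : (3 : ℤ) ≤ 3 ^ k := le_self_pow₀ (by norm_num) (by omega)
  have hKC : 4 * C ≤ K := by
    have := mul_le_mul_of_nonneg_left h3k (by linarith : 0 ≤ 4 * (C + h.leadingCoeff * k))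
    rw [hK]; linarith
  have hK100 : 100 ≤ K := by
    have : 0 ≤ 4 * (C + h.leadingCoeff * k) * 3 ^ k := by positivity
    linarith
  have hKL : K * L ≤ K * L ^ k :=
    mul_le_mul_of_nonneg_left (le_self_pow₀ hL (by omega)) (by linarith)
  have hKLk : K ≤ K * L ^ k := le_mul_of_one_le_right (by linarith) (one_le_pow₀ hL)
  have hMK : K ≤ M := hKLk.trans hLM
  have hcop : IsCoprime ((p₀ : ℤ) ^ e) ((p : ℤ) ^ f) :=
    (Nat.isCoprime_iff_coprime.2 ((Nat.coprime_primes hp₀ hp).2 hne)).pow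
  have hM0 : (p₀ : ℤ) ^ e ∣ M ∧ (p : ℤ) ^ f ∣ M :=
    hM ▸ ⟨dvd_mul_right _ _, dvd_mul_left _ _⟩
  have huniq : ∀ x y : ℤ, M ∣ h.eval x → M ∣ h.eval y →
      x % (p₀ * p : ℤ) = κ → y % (p₀ * p : ℤ) = κ → M ∣ y - x := by
    intro x y hx hy hxκ hyκ
    have hd : (p₀ : ℤ) * p ∣ y - x := Int.modEq_iff_dvd.1 (hxκ.trans hyκ.symm)
    rw [hM]
    exact hcop.mul_dvd
      (root_unique hp₀ hs₀ (dvd_of_mul_right_dvd hd) e (hM0.1.trans hx) (hM0.1.trans hy))
      (root_unique hp hs (dvd_of_mul_left_dvd hd) f (hM0.2.trans hx) (hM0.2.trans hy))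
  by_cases hroot : ∃ n : ℤ, M ∣ h.eval n ∧ n % (p₀ * p : ℤ) = κ
  swap
  · exact ⟨0, 0, fun n D _ _ hD hκ => absurd ⟨n, ⟨D, hD⟩, hκ⟩ hroot⟩
  obtain ⟨r, hr, hrκ⟩ := hroot
  by_cases hsmall : ∃ n₀ : ℤ, M ∣ n₀ - r ∧ |n₀| * (K * L ^ k) ≤ M
  · obtain ⟨n₀, hn₀, hn₀K⟩ := hsmall
    refine ⟨0, h.eval n₀ / M, fun n D hn1 hn2 hD hκ => Or.inr ?_⟩
    obtain ⟨t, ht⟩ : M ∣ n - n₀ := by
      have := dvd_sub (huniq r n hr ⟨D, hD⟩ hrκ hκ) hn₀
      rwa [sub_sub_sub_cancel_right] at this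
    have hX : max 1 |n₀| * (K * L ^ k) ≤ M := by
      rcases max_choice 1 |n₀| with h1 | h1 <;> rw [h1]
      · rwa [one_mul]
      · exact hn₀K
    have hX1 : (1 : ℤ) ≤ max 1 |n₀| := le_max_left _ _
    have hn₀M : |n₀| < M := by
      have h1 := mul_le_mul_of_nonneg_left (show (2 : ℤ) ≤ K * L ^ k by linarith) (abs_nonneg n₀)
      linarith
    have ht0 : 0 ≤ t := by
      by_contra hneg
      have := mul_le_mul_of_nonneg_left (by omega : t ≤ -1) (by linarith : 0 ≤ M)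
      have := le_abs_self n₀
      linarith
    rcases eq_or_lt_of_le ht0 with rfl | htpos
    · left
      have e : n = n₀ := by linarith
      subst e
      refine ⟨by rw [hD, Int.mul_ediv_cancel_left _ (by linarith)], ?_⟩
      have h1 : 4 * C * max 1 |n| < M := by
        have h2 : 4 * C * 2 ≤ 2 * K := by linarith
        have h3 := mul_le_mul_of_nonneg_right (hKC.trans hKLk) (by linarith : 0 ≤ max 1 |n|)
        have h4 : 4 * C * max 1 |n| ≠ M ∨ 4 * C < K := Or.inr (by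
          have := mul_le_mul_of_nonneg_left h3k (by linarith : 0 ≤ 4 * (C + h.leadingCoeff * k))
          rw [hK]; linarith)
        rcases h4 with h4 | h4
        · exact lt_of_le_of_ne (by linarith) h4
        · have := mul_lt_mul_of_pos_right (h4.trans_le hKLk) (by linarith : 0 < max 1 |n|)
          linarith
      calc 4 * |h.eval n| ≤ 4 * (C * max 1 |n| ^ k) := by linarith [hb1 n]
        _ ≤ (4 * C * max 1 |n|) ^ k := by
          rw [mul_pow (4 * C), ← mul_assoc]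
          exact mul_le_mul_of_nonneg_right (le_self_pow₀ (by linarith) (by omega)) (by positivity)
        _ < M ^ k := pow_lt_pow_left₀ h1 (by positivity) (by omega)
    · right
      refine ⟨t, by omega, ?_⟩
      have hMt : 0 ≤ M * t := mul_nonneg (by linarith) ht0
      have hn3 : n ≤ 3 * (M * L) ∧ M * t ≤ 3 * (M * L) := by
        have := mul_le_mul_of_nonneg_left hL (by linarith : 0 ≤ M)
        have := neg_abs_le n₀
        constructor <;> linarith
      have h1 : |h.eval n - h.leadingCoeff * n ^ k| ≤ C * (3 * (M * L)) ^ (k - 1) := by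
        refine (hb3 n).trans (mul_le_mul_of_nonneg_left ?_ (by linarith))
        rw [max_eq_right (by rw [abs_of_pos (by linarith)]; exact hn1), abs_of_pos (by linarith)]
        exact pow_le_pow_left₀ (by linarith) hn3.1 _
      have h2 : |n ^ k - (M * t) ^ k| ≤ max 1 |n₀| * k * (3 * (M * L)) ^ (k - 1) := by
        refine (abs_pow_sub_pow_le n (M * t) k).trans ?_
        rw [show n - M * t = n₀ by linarith]
        refine mul_le_mul (mul_le_mul_of_nonneg_right (le_max_right _ _) (Int.natCast_nonneg k)) ?_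
          (by positivity) (by positivity)
        refine pow_le_pow_left₀ (by positivity) (max_le ?_ ?_) _
        · rw [abs_of_pos (by linarith)]; exact hn3.1
        · rw [abs_of_nonneg hMt]; exact hn3.2
      have h3 : |h.eval n - h.leadingCoeff * M ^ k * t ^ k| ≤
          (C + h.leadingCoeff * k) * max 1 |n₀| * (3 * (M * L)) ^ (k - 1) := by
        have e : h.eval n - h.leadingCoeff * M ^ k * t ^ k =
            (h.eval n - h.leadingCoeff * n ^ k) + h.leadingCoeff * (n ^ k - (M * t) ^ k) := by ring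
        rw [e]
        refine (abs_add_le _ _).trans ?_
        rw [abs_mul, abs_of_pos hlc]
        have := mul_le_mul_of_nonneg_left h2 hlc.le
        have := mul_le_mul_of_nonneg_right (le_mul_of_one_le_right (by linarith : 0 ≤ C) hX1)
          (show (0 : ℤ) ≤ (3 * (M * L)) ^ (k - 1) by
            have : 0 ≤ M * L := mul_nonneg (by linarith) (by linarith)
            positivity)
        linarith
      have h4 : 4 * ((C + h.leadingCoeff * k) * max 1 |n₀| * (3 * L) ^ (k - 1)) < M := by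
        refine lt_of_lt_of_le ?_ hX
        rw [show 4 * ((C + h.leadingCoeff * k) * max 1 |n₀| * (3 * L) ^ (k - 1)) =
          max 1 |n₀| * (4 * (C + h.leadingCoeff * k) * 3 ^ (k - 1) * L ^ (k - 1)) by ring]
        refine mul_lt_mul_of_pos_left ?_ (by linarith)
        refine mul_lt_mul ?_ (pow_le_pow_right₀ hL (by omega)) (by positivity) (by linarith)
        rw [hK]
        have := mul_le_mul_of_nonneg_left (pow_le_pow_right₀ (show (1 : ℤ) ≤ 3 by norm_num)
          (by omega : k - 1 ≤ k)) (by linarith : 0 ≤ 4 * (C + h.leadingCoeff * k))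
        linarith
      have h5 := mul_lt_mul_of_pos_right h4 (pow_pos (by linarith : 0 < M) (k - 1))
      rw [mul_pow_sub_one (by omega)] at h5
      refine lt_of_le_of_lt ?_ h5
      calc 4 * |h.eval n - h.leadingCoeff * M ^ k * t ^ k|
          ≤ 4 * ((C + h.leadingCoeff * k) * max 1 |n₀| * (3 * (M * L)) ^ (k - 1)) := by linarith
        _ = _ := by ring
  push Not at hsmall
  have hbal : ∀ x : ℤ, ∃ y : ℤ, M ∣ y - x ∧ 2 * |y| ≤ M := by
    intro x
    have h0 := Int.emod_nonneg x (by linarith : M ≠ 0)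
    have h1 := Int.emod_lt_of_pos x (by linarith : 0 < M)
    by_cases hle : 2 * (x % M) ≤ M
    · exact ⟨x % M, ⟨-(x / M), by rw [Int.emod_def]; ring⟩, by rw [abs_of_nonneg h0]; exact hle⟩
    · exact ⟨x % M - M, ⟨-(x / M) - 1, by rw [Int.emod_def]; ring⟩,
        by rw [abs_of_nonpos (by omega)]; omega⟩
  obtain ⟨r₀, hr₀, hr₀M⟩ := hbal r
  obtain ⟨D₀, hD₀⟩ : M ∣ h.eval r₀ := by
    have := dvd_add (hr₀.trans (sub_dvd_eval_sub r₀ r h)) hr
    rwa [sub_add_cancel] at this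
  obtain ⟨v, w, hvw⟩ : IsCoprime ((derivative h).eval r₀) M := by
    rw [hM]
    refine IsCoprime.mul_right (IsCoprime.pow_right ?_) (IsCoprime.pow_right ?_) <;>
      refine IsCoprime.symm ?_
    · exact (Nat.prime_iff_prime_int.1 hp₀).coprime_iff_not_dvd.2 (hs₀ r₀
        ((dvd_pow_self _ he).trans (hM0.1.trans ⟨D₀, hD₀⟩)))
    · exact (Nat.prime_iff_prime_int.1 hp).coprime_iff_not_dvd.2 (hs r₀
        ((dvd_pow_self _ hf).trans (hM0.2.trans ⟨D₀, hD₀⟩)))
  obtain ⟨Λ, hΛ, hΛM⟩ := hbal (-(v * D₀))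
  obtain ⟨ν, hν⟩ := hΛ
  have hsq : M ^ 2 ∣ h.eval (r₀ + M * Λ) := by
    obtain ⟨u, hu⟩ := h.binomExpansion r₀ (M * Λ)
    exact ⟨D₀ * w + (derivative h).eval r₀ * ν + u * Λ ^ 2, by
      rw [hu, hD₀]
      linear_combination ((derivative h).eval r₀ * M) * hν - (D₀ * M) * hvw⟩
  have hL24 : 24 * L ≤ |Λ| := by
    rcases hgood _ hsq with h1 | h1
    · have h2 := hsmall (r₀ + M * Λ) (by
        rw [show r₀ + M * Λ - r = r₀ - r + M * Λ by ring]
        exact dvd_add hr₀ (dvd_mul_right _ _))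
      linarith
    · by_contra hlt
      have h2 := abs_add_le r₀ (M * Λ)
      rw [abs_mul, abs_of_pos (by linarith : 0 < M)] at h2
      have h3 := mul_le_mul_of_nonneg_left (by omega : |Λ| ≤ 24 * L) (by linarith : 0 ≤ M)
      have h4 := mul_le_mul_of_nonneg_right hK100 (mul_nonneg (by linarith : 0 ≤ M)
        (by linarith : (0 : ℤ) ≤ L))
      have h5 := le_mul_of_one_le_right (by linarith : 0 ≤ M) hL
      linarith
  obtain ⟨a, ha⟩ := exists_multiplier (M := M) hL hL24 hΛM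
  refine ⟨a * v, 0, fun n D hn1 hn2 hD hκ => Or.inl fun z => ?_⟩
  obtain ⟨t, ht⟩ : M ∣ n - r₀ := by
    have := dvd_sub (huniq r n hr ⟨D, hD⟩ hrκ hκ) hr₀
    rwa [sub_sub_sub_cancel_right] at this
  have ht3 : |t| ≤ 3 * L := by
    refine le_of_mul_le_mul_left ?_ (by linarith : 0 < M)
    rw [← abs_of_pos (show 0 < M by linarith), ← abs_mul, abs_of_pos (show 0 < M by linarith), ← ht]
    have := abs_sub n r₀
    rw [abs_of_pos (by linarith : 0 < n)] at this
    have := le_mul_of_one_le_right (by linarith : 0 ≤ M) hL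
    linarith
  obtain ⟨u, hu⟩ := h.binomExpansion r₀ (M * t)
  rw [show r₀ + M * t = n by linarith, hD, hD₀] at hu
  have hDt : D = D₀ + (derivative h).eval r₀ * t + M * (u * t ^ 2) :=
    mul_left_cancel₀ (by linarith : M ≠ 0) (by rw [hu]; ring)
  have := ha t ht3 (z + a * (w * t - v * u * t ^ 2 - ν))
  convert this using 3
  rw [hDt]
  linear_combination (a * t) * hvw + a * hν

end Vale.Agent.P042.Power
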