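import Vale.Agent.P042.Power.Ruzsa
import Vale.Agent.P042.Power.Classes

/-!
A power gain over the greedy bound for sets avoiding the values of a squarefree polynomial.
-/

namespace Vale.Agent.P042.Power

open Finset Polynomial Filter

variable {h : ℤ[X]} {k : ℕ}

/-- Many numbers with all the colours `⌊8 ((a i * b) % M) / M⌋` equal. -/
lemma exists_colour_class {M : ℤ} (hM : 0 < M) (r V : ℕ) (a : ℕ → ℤ) :
    ∃ B₁ ⊆ range V, V ≤ 8 ^ r * B₁.card ∧
      ∀ x ∈ B₁, ∀ y ∈ B₁, ∀ i < r, 8 * |a i * (x : ℤ) % M - a i * (y : ℤ) % M| < M := by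
  classical
  set col : ℕ → Fin r → Fin 8 := fun b i => ⟨(8 * (a i * (b : ℤ) % M) / M).toNat, by
    have h1 := Int.emod_lt_of_pos (a i * (b : ℤ)) hM
    have : 8 * (a i * (b : ℤ) % M) / M < 8 := (Int.ediv_lt_iff_lt_mul hM).2 (by linarith)
    omega⟩
  obtain ⟨c, -, hc⟩ := exists_max_image univ
    (fun c : Fin r → Fin 8 => ((range V).filter fun b => col b = c).card) univ_nonempty
  refine ⟨(range V).filter fun b => col b = c, filter_subset _ _, ?_, fun x hx y hy i hi => ?_⟩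
  · have h1 := card_eq_sum_card_fiberwise (s := range V) (t := univ) (f := col)
      (fun _ _ => mem_univ _)
    rw [card_range] at h1
    conv_lhs => rw [h1]
    refine (sum_le_card_nsmul _ _ _ hc).trans (le_of_eq ?_)
    rw [card_univ, Fintype.card_fun, Fintype.card_fin, Fintype.card_fin, smul_eq_mul]
  · have e := congrFun ((mem_filter.1 hx).2.trans (mem_filter.1 hy).2.symm) ⟨i, hi⟩
    simp only [col, Fin.mk.injEq] at e
    have hx0 := Int.emod_nonneg (a i * (x : ℤ)) hM.ne'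
    have hy0 := Int.emod_nonneg (a i * (y : ℤ)) hM.ne'
    have h1 := Int.ediv_nonneg (by linarith : 0 ≤ 8 * (a i * (x : ℤ) % M)) hM.le
    have h2 := Int.ediv_nonneg (by linarith : 0 ≤ 8 * (a i * (y : ℤ) % M)) hM.le
    have e' : 8 * (a i * (x : ℤ) % M) / M = 8 * (a i * (y : ℤ) % M) / M := by omega
    have h3 := Int.emod_add_mul_ediv (8 * (a i * (x : ℤ) % M)) M
    have h4 := Int.emod_add_mul_ediv (8 * (a i * (y : ℤ) % M)) M
    have h5 := Int.emod_nonneg (8 * (a i * (x : ℤ) % M)) hM.ne'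
    have h6 := Int.emod_nonneg (8 * (a i * (y : ℤ) % M)) hM.ne'
    have h7 := Int.emod_lt_of_pos (8 * (a i * (x : ℤ) % M)) hM
    have h8 := Int.emod_lt_of_pos (8 * (a i * (y : ℤ) % M)) hM
    rw [show (8 : ℤ) * |a i * (x : ℤ) % M - a i * (y : ℤ) % M| =
      |8 * (a i * (x : ℤ) % M) - 8 * (a i * (y : ℤ) % M)| by rw [← mul_sub, abs_mul]; norm_num,
      abs_lt]
    rw [e'] at h3
    constructor <;> linarith

/-- The set at the scale `L = q ^ l`. -/
lemma exists_avoiding_at_scale (hk : 2 ≤ k) (hdeg : h.natDegree = k) (hlc : 0 < h.leadingCoeff)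
    (hsq : Squarefree (h.map (Int.castRingHom ℚ))) :
    ∃ q B K' : ℕ, 2 ≤ q ∧ 1 ≤ B ∧ 1 ≤ K' ∧ ∀ᶠ l : ℕ in atTop,
      ∃ A ⊆ Icc 1 (B ^ k * (q ^ (k * (3 * k + 4))) ^ l),
        (∀ a ∈ A, ∀ b ∈ A, ∀ n : ℕ, 1 ≤ n → (a : ℤ) - b = h.eval (n : ℤ) → a = b) ∧
          2 ^ l * (q ^ ((k - 1) * (3 * k + 4))) ^ l ≤ K' * A.card := by
  classical
  obtain ⟨D₁, hD₁⟩ := exists_simple_bound hsq
  obtain ⟨C, hC, hb1, hb3, hb2⟩ := exists_eval_bounds hdeg (by omega) hlc
  obtain ⟨q, hq, hS⟩ := exists_powerFree hk hlc.ne'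
  obtain ⟨p₀, hp₀le, hp₀⟩ := Nat.exists_infinite_primes (D₁ + 1)
  have hinf : {p : ℕ | p.Prime ∧ p₀ < p}.Infinite := by
    refine Set.infinite_of_forall_exists_gt fun a => ?_
    obtain ⟨p, hp1, hp2⟩ := Nat.exists_infinite_primes (max a p₀ + 1)
    exact ⟨p, ⟨hp2, by omega⟩, by omega⟩
  obtain ⟨PL, hPL, hPLcard⟩ := hinf.exists_subset_card_eq (p₀ * (2 * k) + 1)
  set B := p₀ * (∑ p ∈ PL, p) + 1 with hB
  have hPB : ∀ p ∈ PL, p.Prime ∧ p₀ < p ∧ p₀ * p ≤ B := fun p hp =>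
    ⟨(hPL hp).1, (hPL hp).2, by
      have h1 : p ≤ ∑ p ∈ PL, p := single_le_sum_of_canonicallyOrdered (f := fun p => p) hp
      have := Nat.mul_le_mul_left p₀ h1
      omega⟩
  set K : ℤ := 4 * (C + h.leadingCoeff * k) * 3 ^ k + 100 with hK
  have hK100 : 100 ≤ K := by
    have : 0 ≤ 4 * (C + h.leadingCoeff * k) * 3 ^ k := by
      have := mul_nonneg hlc.le (Int.natCast_nonneg k)
      positivity
    linarith
  refine ⟨q, B, 8 * 8 ^ B * (2 * B + 1), hq, by omega, (show 0 < 8 * 8 ^ B * (2 * B + 1) by positivity), ?_⟩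
  have htend : Tendsto (fun l : ℕ => ((q ^ l : ℕ) : ℤ)) atTop atTop :=
    tendsto_natCast_atTop_atTop.comp (tendsto_pow_atTop_atTop_of_one_lt hq)
  filter_upwards [htend.eventually_ge_atTop (3 * K * B), htend.eventually_ge_atTop (3 * C * K)]
    with l hl1 hl2
  set L : ℤ := ((q ^ l : ℕ) : ℤ) with hLdef
  have hB1 : (1 : ℤ) ≤ B := by exact_mod_cast (by omega : 1 ≤ B)
  have hL3 : 300 ≤ L := by
    have := mul_le_mul (show (300 : ℤ) ≤ 3 * K by linarith) hB1 zero_le_one (by linarith)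
    linarith
  obtain ⟨p, hpPL, e, f, he, hf, hM1, hM2, hgood⟩ := exists_modulus (h := h) (B := B) hp₀
    (fun p hp => ⟨(hPB p hp).1, by exact_mod_cast (hPB p hp).2.2⟩) (by omega)
    (hD₁ p₀ hp₀ (by omega)) (by omega) hC (by linarith) hB1 hb1 hb2 hl1 hl2
  obtain ⟨hp, hp₀p, hpB⟩ := hPB p hpPL
  obtain ⟨M, hMdef⟩ : ∃ M : ℕ, M = p₀ ^ e * p ^ f := ⟨_, rfl⟩
  rw [show (p₀ : ℤ) ^ e * (p : ℤ) ^ f = (M : ℤ) by rw [hMdef]; push_cast; rfl] at hM1 hM2 hgood
  set Z : ℤ := L ^ (k + 1) with hZ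
  have hLZ : L * L ^ k ≤ Z ^ 3 := by
    rw [← pow_succ', ← hZ]
    exact le_self_pow₀ (one_le_pow₀ (by linarith)) (by norm_num)
  have hKL' : K ≤ L := by
    have := le_mul_of_one_le_right (by linarith : 0 ≤ 3 * K) hB1
    linarith
  have hLM : K * L ^ k ≤ M :=
    (mul_le_mul_of_nonneg_right hKL' (by positivity)).trans (hLZ.trans hM1)
  have hM8 : 8 ≤ M := by
    have h1 : K ≤ K * L ^ k := le_mul_of_one_le_right (by linarith) (one_le_pow₀ (by linarith))
    omega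
  have hC2 : 2 * C + 1 ≤ 2 * (M : ℤ) * L := by
    have h1 : C ≤ C * K := le_mul_of_one_le_right (by linarith) (by linarith)
    have h2 : L ≤ 2 * (M : ℤ) * L := le_mul_of_one_le_left (by linarith) (by omega)
    linarith
  obtain ⟨r, hr⟩ : ∃ r : ℕ, r = p₀ * p := ⟨_, rfl⟩
  have hdata : ∀ i : ℕ, ∃ a E : ℤ, ∀ n D : ℤ, 1 ≤ n → n ≤ 2 * (M : ℤ) * L →
      h.eval n = M * D → n % (p₀ * p : ℤ) = i →
      (∀ z : ℤ, (M : ℤ) ≤ 8 * |a * D - M * z|) ∨ (D = E ∧ 4 * |h.eval n| < (M : ℤ) ^ k) ∨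
        ∃ t : ℤ, 1 ≤ t ∧
          4 * |h.eval n - h.leadingCoeff * (M : ℤ) ^ k * t ^ k| < (M : ℤ) ^ k :=
    exists_class_data hp₀ hp hp₀p.ne (by rw [hMdef]; push_cast; rfl) (hD₁ p₀ hp₀ (by omega))
      (hD₁ p hp (by omega)) he.ne' hf.ne' hk hlc hC hK (by linarith) hLM hb1 hb3 hgood
  choose a E hdata using hdata
  obtain ⟨V, hV⟩ : ∃ V : ℕ, V = M ^ (k - 1) / 4 := ⟨_, rfl⟩
  obtain ⟨B₁, hB₁, hB₁c, hcol⟩ := exists_colour_class (M := (M : ℤ)) (by omega) r V a
  obtain ⟨B₂, hB₂, hB₂c, hB₂E⟩ := exists_avoid_differences B₁ ((range r).image E)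
  obtain ⟨S, hSsub, hScard, hSfree⟩ := hS l
  refine ⟨(S ×ˢ B₂).image fun x => 1 + x.1 * M ^ k + M * x.2, ?_, ?_, ?_⟩
  · -- the set fits in the interval
    intro x hx
    obtain ⟨⟨s, b⟩, hsb, rfl⟩ := mem_image.1 hx
    obtain ⟨hs, hb⟩ := mem_product.1 hsb
    have hs' := mem_range.1 (hSsub hs)
    have hb' := mem_range.1 (hB₁ (hB₂ hb))
    have h4 : M * b < M ^ k := by
      rw [← mul_pow_sub_one (by omega : k ≠ 0) M]
      exact Nat.mul_lt_mul_of_pos_left (hb'.trans_le (hV ▸ Nat.div_le_self _ _)) (by omega)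
    have h5 : (s + 1) * M ^ k ≤ q ^ (k * l) * M ^ k := Nat.mul_le_mul_right _ hs'
    have h6 : q ^ (k * l) * M ^ k ≤ B ^ k * (q ^ (k * (3 * k + 4))) ^ l := by
      have : M ≤ B * ((q ^ l) ^ (k + 1)) ^ 3 := by
        rw [hZ, hLdef] at hM2; exact_mod_cast hM2
      refine (Nat.mul_le_mul_left _ (Nat.pow_le_pow_left this k)).trans (le_of_eq ?_)
      simp only [mul_pow, ← pow_mul]
      rw [mul_left_comm, ← pow_add]
      congr 2
      ring
    simp only [mem_Icc]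
    rw [add_mul, one_mul] at h5
    omega
  · intro x hx y hy n hn heq
    obtain ⟨⟨s, b⟩, hsb, rfl⟩ := mem_image.1 hx
    obtain ⟨⟨s', b'⟩, hsb', rfl⟩ := mem_image.1 hy
    obtain ⟨hs, hb⟩ := mem_product.1 hsb
    obtain ⟨hs', hb'⟩ := mem_product.1 hsb'
    push_cast at heq
    have hbl : ∀ {u : ℕ}, u ∈ B₂ → 4 * ((M : ℤ) * u) < (M : ℤ) ^ k := by
      intro u hu
      have h1 := mem_range.1 (hB₁ (hB₂ hu))
      have h2 : 4 * u < M ^ (k - 1) := by omega
      have h3 : 4 * (M * u) < M ^ k := by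
        rw [← mul_pow_sub_one (by omega : k ≠ 0) M, mul_left_comm]
        exact Nat.mul_lt_mul_of_pos_left h2 (by omega)
      exact_mod_cast h3
    obtain ⟨U, hU⟩ : ∃ U : ℤ, U = (M : ℤ) ^ k := ⟨_, rfl⟩
    have hMk : (M : ℤ) ^ k = M * (M * (M : ℤ) ^ (k - 2)) := by
      rw [← pow_succ', ← pow_succ']; congr 1; omega
    set D : ℤ := ((s : ℤ) - s') * (M * (M : ℤ) ^ (k - 2)) + ((b : ℤ) - b') with hD
    have hev : h.eval (n : ℤ) = M * D := by
      rw [← heq, hD, hMk]; ring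
    have hMbb : 4 * |(M : ℤ) * ((b : ℤ) - b')| < U := by
      have := hbl hb
      have := hbl hb'
      have : 0 ≤ (M : ℤ) * b := by positivity
      have : 0 ≤ (M : ℤ) * b' := by positivity
      rw [← hU] at *
      rcases abs_choice ((M : ℤ) * ((b : ℤ) - b')) with h1 | h1 <;> rw [h1] <;> linarith
    have heq' : h.eval (n : ℤ) = ((s : ℤ) - s') * U + M * ((b : ℤ) - b') := by
      rw [← heq, hU]; ring
    -- the root is not too large
    have hnle : (n : ℤ) ≤ 2 * M * L := by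
      by_contra hlt
      have h1 := hb2 (n : ℤ) (by rw [Int.abs_natCast]; linarith)
      rw [Int.abs_natCast] at h1
      have h2 : ∀ {v : ℕ}, v ∈ S → (v : ℤ) + 1 ≤ L ^ k := by
        intro v hv
        have := mem_range.1 (hSsub hv)
        rw [mul_comm k l, pow_mul] at this
        rw [hLdef]; exact_mod_cast this
      have h3 : |h.eval (n : ℤ)| < L ^ k * U := by
        have hU0 : 0 ≤ U := by rw [hU]; positivity
        have e1 := mul_le_mul_of_nonneg_right (h2 hs) hU0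
        have e2 := mul_le_mul_of_nonneg_right (h2 hs') hU0
        have e3 : 0 ≤ (s : ℤ) * U := by positivity
        have e4 : 0 ≤ (s' : ℤ) * U := by positivity
        have e5 := le_abs_self ((M : ℤ) * ((b : ℤ) - b'))
        have e6 := neg_abs_le ((M : ℤ) * ((b : ℤ) - b'))
        have e7 := abs_nonneg ((M : ℤ) * ((b : ℤ) - b'))
        rw [heq', abs_lt]
        constructor <;> linarith
      have h4 : (2 * (M : ℤ) * L) ^ k ≤ (n : ℤ) ^ k :=
        pow_le_pow_left₀ (by positivity) (by linarith) k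
      have h5 : 2 * (L ^ k * U) ≤ (2 * (M : ℤ) * L) ^ k := by
        rw [hU, mul_pow, mul_pow, ← mul_assoc]
        calc 2 * L ^ k * (M : ℤ) ^ k = 2 * (M : ℤ) ^ k * L ^ k := by ring
          _ ≤ _ := by
            gcongr
            exact le_self_pow₀ (by norm_num) (by omega)
      linarith
    set i := ((n : ℤ) % (p₀ * p : ℤ)).toNat with hi
    have hpp : (0 : ℤ) < p₀ * p := by exact_mod_cast Nat.mul_pos hp₀.pos hp.pos
    have hi' : (n : ℤ) % (p₀ * p : ℤ) = i := (Int.toNat_of_nonneg (Int.emod_nonneg _ hpp.ne')).symm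
    have hir : i < r := by
      have := Int.emod_lt_of_pos (n : ℤ) hpp
      rw [hi'] at this
      rw [hr]; exact_mod_cast this
    have hUabs : ∀ z : ℤ, z ≠ 0 → U ≤ |z * U| := by
      intro z hz
      rw [abs_mul, abs_of_nonneg (by rw [hU]; positivity : (0 : ℤ) ≤ U)]
      exact le_mul_of_one_le_left (by rw [hU]; positivity) (Int.one_le_abs hz)
    have hU0 : 0 < U := by rw [hU]; exact pow_pos (by omega) k
    rcases hdata i n D (by exact_mod_cast hn) hnle hev hi' with h1 | ⟨h1, h2⟩ | ⟨t, ht, h2⟩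
    · exfalso
      have h2 := hcol b (hB₂ hb) b' (hB₂ hb') i hir
      have h3 := h1 ((a i * b / M - a i * b' / M) + a i * ((s : ℤ) - s') * (M : ℤ) ^ (k - 2))
      have e : a i * D - M * ((a i * b / M - a i * b' / M) +
          a i * ((s : ℤ) - s') * (M : ℤ) ^ (k - 2)) = a i * b % M - a i * b' % M := by
        rw [hD, Int.emod_def, Int.emod_def]; ring
      rw [e] at h3
      linarith
    · rw [← hU] at h2
      have h3 : s = s' := by
        by_contra hne
        have e1 := hUabs ((s : ℤ) - s') (sub_ne_zero.2 (by exact_mod_cast hne))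
        have e2 := abs_sub (h.eval (n : ℤ)) ((M : ℤ) * ((b : ℤ) - b'))
        rw [show h.eval (n : ℤ) - M * ((b : ℤ) - b') = ((s : ℤ) - s') * U by
          rw [heq']; ring] at e2
        linarith
      subst h3
      have h4 : b = b' := hB₂E b hb b' hb' (mem_image.2 ⟨i, mem_range.2 hir, by
        rw [← h1, hD]; ring⟩)
      rw [h4]
    · exfalso
      rw [← hU] at h2
      refine hSfree s hs s' hs' t (by omega) ?_
      by_contra hne
      have e1 := hUabs (((s : ℤ) - s') - h.leadingCoeff * t ^ k) (sub_ne_zero.2 hne)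
      have e2 := abs_sub (h.eval (n : ℤ) - h.leadingCoeff * U * t ^ k) ((M : ℤ) * ((b : ℤ) - b'))
      rw [show h.eval (n : ℤ) - h.leadingCoeff * U * t ^ k - M * ((b : ℤ) - b') =
        (((s : ℤ) - s') - h.leadingCoeff * t ^ k) * U by rw [heq']; ring] at e2
      linarith
  · rw [card_image_of_injOn, card_product]
    · have hr' : r ≤ B := by rw [hr]; exact hpB
      have hV' : M ^ (k - 1) ≤ 8 * V := by
        have : 8 ≤ M ^ (k - 1) := hM8.trans (le_self_pow₀ (by omega) (by omega))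
        omega
      have hV2 : V ≤ 8 ^ B * (2 * B + 1) * B₂.card := by
        have h1 := hB₁c.trans (Nat.mul_le_mul_left _ hB₂c)
        refine h1.trans ?_
        rw [← mul_assoc]
        refine Nat.mul_le_mul_right _ (Nat.mul_le_mul (Nat.pow_le_pow_right (by norm_num) hr') ?_)
        have := (card_image_le (s := range r) (f := E)).trans (le_of_eq (card_range r))
        omega
      have hZM : ((q ^ l) ^ (k + 1)) ^ 3 ≤ M := by
        rw [hZ, hLdef] at hM1; exact_mod_cast hM1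
      calc 2 ^ l * (q ^ ((k - 1) * (3 * k + 4))) ^ l
          = 2 ^ l * q ^ ((k - 1) * l) * (((q ^ l) ^ (k + 1)) ^ 3) ^ (k - 1) := by
            rw [mul_assoc]
            congr 1
            simp only [← pow_mul]
            rw [← pow_add]
            congr 1
            ring
        _ ≤ S.card * (8 * (8 ^ B * (2 * B + 1) * B₂.card)) :=
            Nat.mul_le_mul hScard (((Nat.pow_le_pow_left hZM _).trans hV').trans
              (Nat.mul_le_mul_left _ hV2))
        _ = _ := by ring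
    · intro u hu v hv huv
      simp only [coe_product, Set.mem_prod, mem_coe] at hu hv
      have hlt : ∀ {u : ℕ}, u ∈ B₂ → M * u < M ^ k := by
        intro u hu
        have h1 := mem_range.1 (hB₁ (hB₂ hu))
        rw [← mul_pow_sub_one (by omega : k ≠ 0) M]
        exact Nat.mul_lt_mul_of_pos_left (h1.trans_le (hV ▸ Nat.div_le_self _ _)) (by omega)
      simp only at huv
      have h1 := congrArg (fun z => (z - 1) % M ^ k) huv
      simp only [add_assoc, Nat.add_sub_cancel_left, Nat.mul_add_mod_self_right,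
        Nat.mod_eq_of_lt (hlt hu.2), Nat.mod_eq_of_lt (hlt hv.2)] at h1
      refine Prod.ext ?_ (Nat.eq_of_mul_eq_mul_left (by omega) h1)
      exact Nat.eq_of_mul_eq_mul_right (pow_pos (show 0 < M by omega) k) (by omega)

/-- **Power gain over the greedy bound for every squarefree polynomial.** -/
theorem exists_power_gain (h : ℤ[X]) (hk : 2 ≤ h.natDegree) (hlc : 0 < h.leadingCoeff)
    (hsq : Squarefree (h.map (Int.castRingHom ℚ))) :
    ∃ δ : ℝ, 0 < δ ∧ ∃ c : ℝ, 0 < c ∧ ∀ᶠ N : ℕ in atTop, ∃ A ⊆ Icc 1 N,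
      (∀ a ∈ A, ∀ b ∈ A, ∀ n : ℕ, 1 ≤ n → (a : ℤ) - b = h.eval (n : ℤ) → a = b) ∧
        c * (N : ℝ) ^ (1 - 1 / (h.natDegree : ℝ) + δ) ≤ A.card := by
  obtain ⟨k, hkdef⟩ : ∃ k, h.natDegree = k := ⟨_, rfl⟩
  rw [hkdef] at hk ⊢
  obtain ⟨q, B, K', hq, hB, hK', hev⟩ := exists_avoiding_at_scale hk hkdef hlc hsq
  obtain ⟨l₀, hl₀⟩ := eventually_atTop.1 hev
  obtain ⟨G, hG⟩ : ∃ G : ℕ, G = q ^ (k * (3 * k + 4)) := ⟨_, rfl⟩
  obtain ⟨F, hF⟩ : ∃ F : ℕ, F = B ^ k := ⟨_, rfl⟩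
  have hG2 : 2 ≤ G := by
    rw [hG]; exact hq.trans (le_self_pow₀ (by omega) (Nat.mul_ne_zero (by omega) (by omega)))
  have hF1 : 1 ≤ F := by rw [hF]; exact Nat.one_le_pow _ _ hB
  have hG0 : (0 : ℝ) < G := by exact_mod_cast (by omega : 0 < G)
  have hG1 : (1 : ℝ) < G := by exact_mod_cast (by omega : 1 < G)
  have hF0 : (0 : ℝ) < F := by exact_mod_cast hF1
  obtain ⟨δ, hδ⟩ : ∃ δ : ℝ, δ = Real.logb G 2 := ⟨_, rfl⟩
  have hδ0 : 0 < δ := hδ ▸ Real.logb_pos hG1 one_lt_two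
  obtain ⟨x, hx⟩ : ∃ x : ℝ, x = 1 - 1 / (k : ℝ) + δ := ⟨_, rfl⟩
  have hk0 : (0 : ℝ) < k := by exact_mod_cast (by omega : 0 < k)
  have hx0 : 0 ≤ x := by
    have : 1 / (k : ℝ) ≤ 1 := (div_le_one hk0).2 (by exact_mod_cast (by omega : 1 ≤ k))
    linarith
  have hGx : (G : ℝ) ^ x = 2 * ((q ^ ((k - 1) * (3 * k + 4)) : ℕ) : ℝ) := by
    rw [hx, Real.rpow_add hG0, hδ, Real.rpow_logb hG0 hG1.ne' two_pos, mul_comm, hG]
    congr 1
    push_cast
    rw [← Real.rpow_natCast_mul (by positivity), ← Real.rpow_natCast]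
    congr 1
    rw [Nat.cast_mul, Nat.cast_mul, Nat.cast_sub (by omega : 1 ≤ k)]
    field_simp
    push_cast
    ring
  refine ⟨δ, hδ0, 1 / (K' * ((F : ℝ) * G) ^ x), by positivity, ?_⟩
  rw [← hx]
  filter_upwards [eventually_ge_atTop (F * G ^ l₀)] with N hN
  set l := Nat.log G (N / F) with hl
  have hl0 : l₀ ≤ l := Nat.le_log_of_pow_le hG2 ((Nat.le_div_iff_mul_le hF1).2 (by linarith))
  obtain ⟨A, hA, hfree, hcard⟩ := hl₀ l hl0
  rw [← hF, ← hG] at hA
  have hNF : N / F ≠ 0 := by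
    intro h0
    have : G ^ l₀ ≤ N / F := (Nat.le_div_iff_mul_le hF1).2 (by linarith)
    have := Nat.one_le_pow l₀ G (by omega)
    omega
  have hlow : F * G ^ l ≤ N :=
    (Nat.mul_le_mul_left F (Nat.pow_log_le_self G hNF)).trans (Nat.mul_div_le N F)
  have hupp : N ≤ F * G * G ^ l := by
    have h1 := Nat.lt_pow_succ_log_self hG2 (N / F)
    rw [Nat.succ_eq_add_one, ← hl, pow_succ, Nat.div_lt_iff_lt_mul hF1] at h1
    linarith
  refine ⟨A, hA.trans (Icc_subset_Icc_right hlow), hfree, ?_⟩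
  have h1 : (N : ℝ) ^ x ≤ ((F : ℝ) * G) ^ x * ((G : ℝ) ^ x) ^ l := by
    rw [Real.rpow_pow_comm hG0.le, ← Real.mul_rpow (by positivity) (by positivity)]
    refine Real.rpow_le_rpow (by positivity) ?_ hx0
    exact_mod_cast hupp
  have h2 : ((G : ℝ) ^ x) ^ l ≤ K' * A.card := by
    rw [hGx, mul_pow]
    exact_mod_cast hcard
  rw [one_div_mul_eq_div, div_le_iff₀ (by positivity)]
  calc (N : ℝ) ^ x ≤ _ := h1
    _ ≤ ((F : ℝ) * G) ^ x * (K' * A.card) := by gcongr
    _ = _ := by ring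

end Vale.Agent.P042.Power
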