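import Vale.Agent.P042.Power.Roots

/-!
A modulus all of whose roots lift either close to the origin or far away from it.
-/

namespace Vale.Agent.P042.Power

open Finset Polynomial

variable {h : ℤ[X]} {k : ℕ}

/-- Among moduli `p₀ ^ e * p ^ f` one has no root of middle size modulo its square. -/
lemma exists_modulus {C K B L : ℤ} {p₀ : ℕ} {PL : Finset ℕ} (hp₀ : p₀.Prime)
    (hPL : ∀ p ∈ PL, p.Prime ∧ (p₀ * p : ℤ) ≤ B) (hcard : p₀ * (2 * k) < PL.card)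
    (hs : ∀ n : ℤ, (p₀ : ℤ) ∣ h.eval n → ¬ (p₀ : ℤ) ∣ (derivative h).eval n)
    (hk : 1 ≤ k) (hC : 1 ≤ C) (hK : 1 ≤ K) (hB : 1 ≤ B)
    (hb1 : ∀ n : ℤ, |h.eval n| ≤ C * max 1 |n| ^ k)
    (hb2 : ∀ n : ℤ, 2 * C + 1 ≤ |n| → |n| ^ k ≤ 2 * |h.eval n|)
    (hL1 : 3 * K * B ≤ L) (hL2 : 3 * C * K ≤ L) :
    ∃ p ∈ PL, ∃ e f : ℕ, 0 < e ∧ 0 < f ∧
      (L ^ (k + 1)) ^ 3 ≤ (p₀ : ℤ) ^ e * (p : ℤ) ^ f ∧
      (p₀ : ℤ) ^ e * (p : ℤ) ^ f ≤ B * (L ^ (k + 1)) ^ 3 ∧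
      ∀ n : ℤ, ((p₀ : ℤ) ^ e * (p : ℤ) ^ f) ^ 2 ∣ h.eval n →
        |n| * (K * L ^ k) ≤ (p₀ : ℤ) ^ e * (p : ℤ) ^ f ∨
          K * ((p₀ : ℤ) ^ e * (p : ℤ) ^ f) * L ≤ |n| := by
  have hL : 3 ≤ L := le_trans (by nlinarith) hL1
  set Z : ℤ := L ^ (k + 1) with hZ
  have hLZ : L ≤ Z := le_self_pow₀ (by linarith) (by omega)
  obtain ⟨Zn, hZn⟩ : ∃ Zn : ℕ, (Zn : ℤ) = Z := ⟨Z.toNat, Int.toNat_of_nonneg (by linarith)⟩
  have hZ1 : 1 < Zn := by omega
  set e := Nat.clog p₀ (Zn ^ 2) with he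
  have hbd : ∀ {p X : ℕ}, p.Prime → 1 < X →
      (X : ℤ) ≤ (p : ℤ) ^ Nat.clog p X ∧ (p : ℤ) ^ Nat.clog p X ≤ p * X := by
    intro p X hp hX
    refine ⟨by exact_mod_cast Nat.le_pow_clog hp.one_lt X, ?_⟩
    have h1 := Nat.pow_pred_clog_lt_self hp.one_lt hX
    have h2 : p ^ Nat.clog p X ≤ p * X := by
      calc p ^ Nat.clog p X = p * p ^ (Nat.clog p X).pred := by
            rw [← pow_succ', ← Nat.succ_eq_add_one, Nat.succ_pred_eq_of_pos
              (Nat.clog_pos hp.one_lt (by omega))]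
        _ ≤ p * X := Nat.mul_le_mul_left _ h1.le
    exact_mod_cast h2
  obtain ⟨he1, he2⟩ := hbd hp₀ (Nat.one_lt_pow two_ne_zero hZ1)
  rw [← he] at he1 he2
  push_cast [hZn] at he1 he2
  have hf : ∀ p ∈ PL, Z ≤ (p : ℤ) ^ Nat.clog p Zn ∧ (p : ℤ) ^ Nat.clog p Zn ≤ p * Z := by
    intro p hp
    have := hbd (hPL p hp).1 hZ1
    rwa [hZn] at this
  have hsize : ∀ p ∈ PL, Z ^ 3 ≤ (p₀ : ℤ) ^ e * (p : ℤ) ^ Nat.clog p Zn ∧
      (p₀ : ℤ) ^ e * (p : ℤ) ^ Nat.clog p Zn ≤ B * Z ^ 3 := by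
    intro p hp
    obtain ⟨h1, h2⟩ := hf p hp
    constructor
    · calc Z ^ 3 = Z ^ 2 * Z := by ring
        _ ≤ _ := mul_le_mul he1 h1 (by linarith) (by positivity)
    · calc _ ≤ (p₀ * Z ^ 2) * (p * Z) := mul_le_mul he2 h2 (by positivity) (by positivity)
        _ = (p₀ * p) * Z ^ 3 := by ring
        _ ≤ _ := mul_le_mul_of_nonneg_right (hPL p hp).2 (by positivity)
  by_contra hne
  push Not at hne
  have hmid : ∀ p ∈ PL, ∃ n : ℤ, ((p₀ : ℤ) ^ e * (p : ℤ) ^ Nat.clog p Zn) ^ 2 ∣ h.eval n ∧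
      (p₀ : ℤ) ^ e * (p : ℤ) ^ Nat.clog p Zn < |n| * (K * L ^ k) ∧
      |n| < K * ((p₀ : ℤ) ^ e * (p : ℤ) ^ Nat.clog p Zn) * L :=
    fun p hp => hne p hp e _ (Nat.clog_pos hp₀.one_lt (Nat.one_lt_pow two_ne_zero hZ1))
      (Nat.clog_pos (hPL p hp).1.one_lt hZ1) (hsize p hp).1 (hsize p hp).2
  choose! n hn1 hn2 hn3 using hmid
  have hp₀Z : (0 : ℤ) < p₀ := by exact_mod_cast hp₀.pos
  have hKBL : 3 * (K * B * L) ≤ Z := by
    have : L * L ≤ Z := by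
      rw [hZ, ← pow_two]; exact pow_le_pow_right₀ (by linarith) (by omega)
    have := mul_le_mul_of_nonneg_right hL1 (by linarith : (0 : ℤ) ≤ L)
    linarith
  have hnle : ∀ p ∈ PL, 3 * |n p| ≤ Z ^ 4 := by
    intro p hp
    have h1 : K * ((p₀ : ℤ) ^ e * (p : ℤ) ^ Nat.clog p Zn) * L ≤ (K * B * L) * Z ^ 3 := by
      have := mul_le_mul_of_nonneg_left (hsize p hp).2 (show (0 : ℤ) ≤ K * L by positivity)
      linarith
    have h2 := mul_le_mul_of_nonneg_right hKBL (show (0 : ℤ) ≤ Z ^ 3 by positivity)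
    have := (hn3 p hp).trans_le h1
    linarith
  have hnge : ∀ p ∈ PL, 2 * C + 1 ≤ |n p| := by
    intro p hp
    by_contra hlt
    have h1 : |n p| * (K * L ^ k) ≤ (2 * C) * (K * L ^ k) :=
      mul_le_mul_of_nonneg_right (by omega) (by positivity)
    have h2 : (2 * C) * (K * L ^ k) ≤ L * L ^ k := by
      have := mul_le_mul_of_nonneg_right hL2 (show (0 : ℤ) ≤ L ^ k by positivity)
      have : 0 ≤ C * K * L ^ k := by positivity
      linarith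
    have h3 : L * L ^ k ≤ Z ^ 3 := by
      rw [← pow_succ', ← hZ]; exact le_self_pow₀ (by linarith) (by norm_num)
    have := hn2 p hp
    have := (hsize p hp).1
    linarith
  obtain ⟨ρ, -, hρ⟩ := exists_lt_card_fiber_of_mul_lt_card_of_maps_to (s := PL)
    (f := fun p => (n p % (p₀ : ℤ)).toNat) (t := range p₀) (n := 2 * k)
    (fun p _ => mem_range.2 (by
      have := Int.emod_lt_of_pos (n p) hp₀Z
      omega)) (by rwa [card_range])
  set F := PL.filter fun p => (n p % (p₀ : ℤ)).toNat = ρ with hF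
  obtain ⟨p1, hp1⟩ : F.Nonempty := card_pos.1 (by omega)
  obtain ⟨hp1P, hp1ρ⟩ := mem_filter.1 hp1
  have heq : ∀ p ∈ F, n p = n p1 := by
    intro p hp
    obtain ⟨hpP, hpρ⟩ := mem_filter.1 hp
    have hd : (p₀ : ℤ) ∣ n p - n p1 := by
      rw [← Int.modEq_iff_dvd]
      have := Int.emod_nonneg (n p) hp₀Z.ne'
      have := Int.emod_nonneg (n p1) hp₀Z.ne'
      show n p1 % _ = n p % _
      omega
    have hdv : ∀ p ∈ PL, (p₀ : ℤ) ^ (2 * e) ∣ h.eval (n p) := fun p hp =>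
      (dvd_mul_right _ (((p : ℤ) ^ Nat.clog p Zn) ^ 2)).trans
        (by rw [mul_comm 2 e, pow_mul, ← mul_pow]; exact hn1 p hp)
    have h1 := root_unique hp₀ hs hd (2 * e) (hdv p1 hp1P) (hdv p hpP)
    refine sub_eq_zero.1 (Int.eq_zero_of_abs_lt_dvd h1 ?_)
    have h2 : Z ^ 4 ≤ (p₀ : ℤ) ^ (2 * e) := by
      rw [mul_comm 2 e, pow_mul]
      calc Z ^ 4 = (Z ^ 2) ^ 2 := by ring
        _ ≤ _ := pow_le_pow_left₀ (by positivity) he1 2
    have := abs_sub (n p) (n p1)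
    have := hnle p hpP
    have := hnle p1 hp1P
    have := hnge p1 hp1P
    linarith
  have hprod : ∏ p ∈ F, ((p : ℤ) ^ Nat.clog p Zn) ^ 2 ∣ h.eval (n p1) := by
    refine prod_dvd_of_coprime (fun p hp p' hp' hpp' => ?_) fun p hp => ?_
    · refine IsCoprime.pow (IsCoprime.pow ?_)
      exact Nat.isCoprime_iff_coprime.2 ((Nat.coprime_primes (hPL p (mem_filter.1 hp).1).1
        (hPL p' (mem_filter.1 hp').1).1).2 hpp')
    · refine Dvd.dvd.trans ?_ (heq p hp ▸ hn1 p (mem_filter.1 hp).1)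
      rw [mul_pow]
      exact dvd_mul_left _ _
  have h0 : h.eval (n p1) ≠ 0 := by
    intro h0
    have := hb2 _ (hnge p1 hp1P)
    rw [h0, abs_zero, mul_zero] at this
    have : 0 < |n p1| ^ k := pow_pos (by linarith [hnge p1 hp1P]) k
    linarith
  have hle := Int.le_of_dvd (abs_pos.2 h0) ((dvd_abs _ _).2 hprod)
  have hlow : Z ^ (4 * k + 2) ≤ ∏ p ∈ F, ((p : ℤ) ^ Nat.clog p Zn) ^ 2 := by
    calc Z ^ (4 * k + 2) ≤ (Z ^ 2) ^ F.card := by
          rw [← pow_mul Z 2]; exact pow_le_pow_right₀ (show (1 : ℤ) ≤ Z by linarith) (by omega)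
      _ = ∏ _p ∈ F, Z ^ 2 := (prod_const _).symm
      _ ≤ _ := prod_le_prod (fun _ _ => by positivity) fun p hp =>
          pow_le_pow_left₀ (by linarith) (hf p (mem_filter.1 hp).1).1 2
  have hup : |h.eval (n p1)| ≤ C * Z ^ (4 * k) := by
    refine (hb1 _).trans (mul_le_mul_of_nonneg_left ?_ (by linarith))
    rw [pow_mul Z 4 k]
    refine pow_le_pow_left₀ (by positivity) (max_le (one_le_pow₀ (by linarith)) ?_) k
    have := hnle p1 hp1P
    have := abs_nonneg (n p1)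
    linarith
  have : C * Z ^ (4 * k) < Z ^ (4 * k + 2) := by
    rw [pow_add, mul_comm C]
    refine mul_lt_mul_of_pos_left ?_ (pow_pos (by linarith) _)
    have : 3 * C ≤ Z := by
      have := le_mul_of_one_le_right (by linarith : (0 : ℤ) ≤ 3 * C) hK
      linarith
    nlinarith
  linarith

end Vale.Agent.P042.Power
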