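import Mathlib

/-!
Simple roots of an integer polynomial modulo prime powers, size bounds and two counting lemmas.
-/

namespace Vale.Agent.P042.Power

open Finset Polynomial

/-- A squarefree polynomial has only simple roots modulo all large primes. -/
lemma exists_simple_bound {h : ℤ[X]} (hsq : Squarefree (h.map (Int.castRingHom ℚ))) :
    ∃ D : ℕ, ∀ p : ℕ, p.Prime → D < p → ∀ n : ℤ, (p : ℤ) ∣ h.eval n →
      ¬ (p : ℤ) ∣ (derivative h).eval n := by
  obtain ⟨a, b, hab⟩ := PerfectField.separable_iff_squarefree.2 hsq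
  obtain ⟨Na, hNa, ha⟩ := IsLocalization.integerNormalization_spec (nonZeroDivisors ℤ) a
  obtain ⟨Nb, hNb, hb⟩ := IsLocalization.integerNormalization_spec (nonZeroDivisors ℤ) b
  set u := IsLocalization.integerNormalization (nonZeroDivisors ℤ) a
  set v := IsLocalization.integerNormalization (nonZeroDivisors ℤ) b
  have e : C Nb * u * h + C Na * v * derivative h = C (Na * Nb) := by
    apply Polynomial.map_injective (Int.castRingHom ℚ) (Int.cast_injective (α := ℚ))
    simp only [algebraMap_int_eq, zsmul_eq_mul] at ha hb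
    simp only [Polynomial.map_add, Polynomial.map_mul, Polynomial.map_C, map_mul, eq_intCast,
      Polynomial.map_intCast, u, v, ha, hb, ← derivative_map] at hab ⊢
    linear_combination ((Na : ℚ[X]) * (Nb : ℚ[X])) * hab
  refine ⟨(Na * Nb).natAbs, fun p hp hlt n h1 h2 => ?_⟩
  have hd : (p : ℤ) ∣ Na * Nb := by
    have := congrArg (Polynomial.eval n) e
    simp only [eval_add, eval_mul, eval_C] at this
    rw [← this]
    exact dvd_add (dvd_mul_of_dvd_right h1 _) (dvd_mul_of_dvd_right h2 _)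
  have hne : Na * Nb ≠ 0 :=
    mul_ne_zero (nonZeroDivisors.ne_zero hNa) (nonZeroDivisors.ne_zero hNb)
  have := Nat.le_of_dvd (Int.natAbs_pos.2 hne) (Int.natCast_dvd.1 hd)
  omega

/-- Roots modulo a prime power are determined by their residue modulo the prime. -/
lemma root_unique {h : ℤ[X]} {p : ℕ} (hp : p.Prime)
    (hs : ∀ n : ℤ, (p : ℤ) ∣ h.eval n → ¬ (p : ℤ) ∣ (derivative h).eval n) {x y : ℤ}
    (hxy : (p : ℤ) ∣ y - x) :
    ∀ e : ℕ, (p : ℤ) ^ e ∣ h.eval x → (p : ℤ) ^ e ∣ h.eval y → (p : ℤ) ^ e ∣ y - x := by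
  intro e
  induction e with
  | zero => simp
  | succ e ih =>
    intro hx hy
    rcases Nat.eq_zero_or_pos e with rfl | he
    · simpa using hxy
    have hd := ih ((pow_dvd_pow _ e.le_succ).trans hx) ((pow_dvd_pow _ e.le_succ).trans hy)
    obtain ⟨w, hw⟩ := h.binomExpansion x (y - x)
    rw [add_sub_cancel] at hw
    have hsqd : (p : ℤ) ^ (e + 1) ∣ w * (y - x) ^ 2 :=
      dvd_mul_of_dvd_right ((pow_dvd_pow _ (by omega : e + 1 ≤ e * 2)).trans
        (by rw [pow_mul]; exact pow_dvd_pow_of_dvd hd 2)) _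
    have hlin : (p : ℤ) ^ (e + 1) ∣ (derivative h).eval x * (y - x) := by
      have h2 := dvd_sub (dvd_sub hy hx) hsqd
      rwa [hw, show ∀ A B C : ℤ, A + B + C - A - C = B from fun A B C => by ring] at h2
    refine IsCoprime.dvd_of_dvd_mul_left (IsCoprime.pow_left ?_) hlin
    exact (Nat.prime_iff_prime_int.1 hp).coprime_iff_not_dvd.2
      (hs x ((dvd_pow_self _ (by omega : e + 1 ≠ 0)).trans hx))

/-- `h n` is close to its leading term. -/
lemma exists_eval_bounds {h : ℤ[X]} {k : ℕ} (hk : h.natDegree = k) (hk1 : 1 ≤ k)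
    (hlc : 0 < h.leadingCoeff) :
    ∃ C : ℤ, 1 ≤ C ∧
      (∀ n : ℤ, |h.eval n| ≤ C * max 1 |n| ^ k) ∧
      (∀ n : ℤ, |h.eval n - h.leadingCoeff * n ^ k| ≤ C * max 1 |n| ^ (k - 1)) ∧
      (∀ n : ℤ, 2 * C + 1 ≤ |n| → |n| ^ k ≤ 2 * |h.eval n|) := by
  set S : ℤ := ∑ i ∈ range (k + 1), |h.coeff i| with hS
  have hS0 : 0 ≤ S := Finset.sum_nonneg fun _ _ => abs_nonneg _
  have hbd : ∀ (n : ℤ) (m j : ℕ), j ≤ k + 1 → j ≤ m + 1 →
      |∑ i ∈ range j, h.coeff i * n ^ i| ≤ (S + 1) * max 1 |n| ^ m := by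
    intro n m j hj hjm
    refine (abs_sum_le_sum_abs _ _).trans ?_
    have : ∑ i ∈ range j, |h.coeff i * n ^ i| ≤ (∑ i ∈ range j, |h.coeff i|) * max 1 |n| ^ m := by
      rw [sum_mul]
      refine sum_le_sum fun i hi => ?_
      rw [abs_mul, abs_pow]
      refine mul_le_mul_of_nonneg_left ?_ (abs_nonneg _)
      exact (pow_le_pow_left₀ (abs_nonneg n) (le_max_right _ _) i).trans
        (pow_le_pow_right₀ (le_max_left _ _) (by have := mem_range.1 hi; omega))
    refine this.trans (mul_le_mul_of_nonneg_right ?_ (by positivity))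
    have := sum_le_sum_of_subset_of_nonneg (range_subset_range.2 hj)
      (fun i _ _ => abs_nonneg (h.coeff i))
    linarith
  have h2 : ∀ n : ℤ, |h.eval n - h.leadingCoeff * n ^ k| ≤ (S + 1) * max 1 |n| ^ (k - 1) := by
    intro n
    rw [eval_eq_sum_range, hk, sum_range_succ, leadingCoeff, hk, add_sub_cancel_right]
    exact hbd n (k - 1) k (by omega) (by omega)
  refine ⟨S + 1, by linarith, fun n => ?_, h2, fun n hn => ?_⟩
  · rw [eval_eq_sum_range, hk]
    exact hbd n k (k + 1) le_rfl le_rfl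
  · have h1 := h2 n
    rw [max_eq_right (by linarith : (1 : ℤ) ≤ |n|)] at h1
    have h3 := abs_sub_abs_le_abs_sub (h.leadingCoeff * n ^ k) (h.eval n)
    rw [abs_sub_comm, abs_mul, abs_of_pos hlc, abs_pow] at h3
    have h4 : |n| ^ k = |n| * |n| ^ (k - 1) := (mul_pow_sub_one (by omega) _).symm
    have h5 : 2 * ((S + 1) * |n| ^ (k - 1)) ≤ |n| ^ k := by
      rw [h4, ← mul_assoc]
      exact mul_le_mul_of_nonneg_right (by linarith) (by positivity)
    have h6 : |n| ^ k ≤ h.leadingCoeff * |n| ^ k := le_mul_of_one_le_left (by positivity) hlc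
    linarith

/-- A large subset avoiding finitely many nonzero differences. -/
lemma exists_avoid_differences (B : Finset ℕ) (E : Finset ℤ) :
    ∃ B' ⊆ B, B.card ≤ (2 * E.card + 1) * B'.card ∧
      ∀ x ∈ B', ∀ y ∈ B', (x : ℤ) - y ∈ E → x = y := by
  classical
  set F := B.powerset.filter fun T : Finset ℕ => ∀ x ∈ T, ∀ y ∈ T, (x : ℤ) - y ∈ E → x = y
  obtain ⟨T, hT, hmax⟩ := exists_max_image F card ⟨∅, by simp [F]⟩
  obtain ⟨hTB, hTE⟩ := mem_filter.1 hT
  rw [mem_powerset] at hTB
  refine ⟨T, hTB, ?_, hTE⟩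
  set E' := insert 0 (E ∪ E.image Neg.neg) with hE'
  have hsub : B ⊆ T.biUnion fun t => E'.image fun e => ((t : ℤ) + e).toNat := by
    intro x hx
    by_cases hxT : x ∈ T
    · exact mem_biUnion.2 ⟨x, hxT, mem_image.2 ⟨0, mem_insert_self _ _, by simp⟩⟩
    have hnot : insert x T ∉ F := fun hins => by
      have := hmax _ hins
      rw [card_insert_of_notMem hxT] at this
      omega
    simp only [F, mem_filter, mem_powerset, insert_subset_iff, hx, hTB, and_self, true_and,
      not_forall] at hnot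
    obtain ⟨y, hy, z, hz, hyz, hne⟩ := hnot
    rcases mem_insert.1 hy with ey | hyT <;> rcases mem_insert.1 hz with ez | hzT
    · exact absurd (ey.trans ez.symm) hne
    · rw [ey] at hyz
      exact mem_biUnion.2 ⟨z, hzT, mem_image.2 ⟨_, mem_insert_of_mem (mem_union_left _ hyz),
        by simp⟩⟩
    · rw [ez] at hyz
      exact mem_biUnion.2 ⟨y, hyT, mem_image.2 ⟨_, mem_insert_of_mem (mem_union_right _
        (mem_image_of_mem _ hyz)), by simp⟩⟩
    · exact absurd (hTE y hyT z hzT hyz) hne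
  have hE'card : E'.card ≤ 2 * E.card + 1 := by
    refine (card_insert_le _ _).trans (Nat.add_le_add_right ?_ 1)
    refine (card_union_le _ _).trans ?_
    have := card_image_le (s := E) (f := Neg.neg)
    omega
  refine (card_le_card hsub).trans ((card_biUnion_le_card_mul _ _ _ fun t _ => ?_).trans
    (by rw [mul_comm]))
  exact card_image_le.trans hE'card

/-- A multiplier `a` moves a root away from the origin while keeping short shifts small. -/
lemma exists_multiplier {M : ℤ} {R L : ℤ} (hR : 1 ≤ R) (hL : 24 * R ≤ |L|) (hLM : 2 * |L| ≤ M) :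
    ∃ a : ℤ, ∀ t : ℤ, |t| ≤ 3 * R → ∀ z : ℤ, M ≤ 8 * |a * (t - L) - M * z| := by
  have hpos : 0 < 2 * |L| := by linarith
  refine ⟨M / (2 * |L|), fun t ht z => ?_⟩
  set a := M / (2 * |L|) with ha
  have h1 : a * (2 * |L|) ≤ M := Int.ediv_mul_le M hpos.ne'
  have h2 : M < (a + 1) * (2 * |L|) := Int.lt_ediv_add_one_mul_self M hpos
  have ha1 : 1 ≤ a := Int.le_ediv_iff_mul_le hpos |>.2 (by linarith)
  have h3 : M < 4 * (a * |L|) := by
    have := mul_le_mul_of_nonneg_right ha1 (abs_nonneg L)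
    linarith
  have h4 : 16 * |a * t| ≤ M := by
    rw [abs_mul, abs_of_pos (by linarith : (0 : ℤ) < a)]
    have : |t| * 8 ≤ |L| := by linarith
    have := mul_le_mul_of_nonneg_left this (by linarith : (0 : ℤ) ≤ a)
    linarith
  have h5 : |a * L| = a * |L| := by rw [abs_mul, abs_of_pos (by linarith : (0 : ℤ) < a)]
  have e : a * (t - L) - M * z = a * t - a * L - M * z := by ring
  rw [e]
  have h6 : M < 4 * |a * L| := by rw [h5]; exact h3
  have h7 : 2 * |a * L| ≤ M := by rw [h5]; linarith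
  have h8 : 8 ≤ M := by linarith
  rcases lt_trichotomy z 0 with hz | rfl | hz
  · have : M * z ≤ -M := by
      have := mul_le_mul_of_nonneg_left (by omega : z ≤ -1) (by linarith : 0 ≤ M)
      linarith
    have := le_abs_self (a * t - a * L - M * z)
    have := neg_abs_le (a * t)
    have := le_abs_self (a * L)
    linarith
  · have h9 := abs_sub_abs_le_abs_sub (a * L) (a * t)
    rw [abs_sub_comm] at h9
    rw [mul_zero, sub_zero]
    linarith
  · have : M ≤ M * z := by
      have := mul_le_mul_of_nonneg_left (by omega : 1 ≤ z) (by linarith : 0 ≤ M)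
      linarith
    have := neg_abs_le (a * t - a * L - M * z)
    have := le_abs_self (a * t)
    have := neg_abs_le (a * L)
    linarith

end Vale.Agent.P042.Power
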