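import Mathlib

/-!
Digit sets with no difference of the form `c * t ^ k`, after Ruzsa.
-/

namespace Vale.Agent.P042.Power

open Finset

/-- For a suitable prime `q` some residue `x` avoids `± c * t ^ k`. -/
lemma exists_nonpower {k : ℕ} (hk : 2 ≤ k) {c : ℤ} (hc : c ≠ 0) :
    ∃ q : ℕ, q.Prime ∧ (c : ZMod q) ≠ 0 ∧ ∃ x : ℕ, 0 < x ∧ x < q ∧
      ∀ t : ZMod q, (c : ZMod q) * t ^ k ≠ (x : ZMod q) ∧
        (c : ZMod q) * t ^ k ≠ -(x : ZMod q) := by
  obtain ⟨q, hq, hqc, hq1⟩ := Nat.exists_prime_gt_modEq_one (2 * c.natAbs) (by omega : 2 * k ≠ 0)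
  have := Fact.mk hq
  have hc' : (c : ZMod q) ≠ 0 := by
    intro h
    have := Nat.le_of_dvd (by omega) (Int.natCast_dvd.1 ((ZMod.intCast_zmod_eq_zero_iff_dvd c q).1 h))
    omega
  obtain ⟨g, hg⟩ := IsCyclic.exists_generator (α := (ZMod q)ˣ)
  obtain ⟨m, hm⟩ : 2 * k ∣ q - 1 := (Nat.modEq_iff_dvd' hq.one_le).1 hq1.symm
  have hord : orderOf g = q - 1 := by
    rw [orderOf_eq_card_of_forall_mem_zpowers hg, Nat.card_eq_fintype_card,
      ZMod.card_units q]
  have hm0 : 0 < m := Nat.pos_of_ne_zero (by rintro rfl; have := hq.two_le; omega)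
  have hge : (g : ZMod q) ^ (2 * m) ≠ 1 := by
    intro h
    have h' : g ^ (2 * m) = 1 := Units.ext (by simpa using h)
    have := Nat.le_of_dvd (by omega) (hord ▸ orderOf_dvd_of_pow_eq_one h')
    nlinarith
  refine ⟨q, hq, hc', ((c : ZMod q) * g).val, ?_, ZMod.val_lt _, fun t => ?_⟩
  · exact Nat.pos_of_ne_zero (by simp [ZMod.val_eq_zero, hc'])
  have key : ∀ s : ZMod q, s ^ (2 * m) = 1 → t ^ k ≠ g * s := by
    intro s hs ht
    have ht0 : t ≠ 0 := by
      rintro rfl
      rw [zero_pow (by omega)] at ht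
      rcases mul_eq_zero.1 ht.symm with h | h
      · exact g.ne_zero h
      · rw [h, zero_pow (by omega)] at hs; exact zero_ne_one hs
    apply hge
    have := congrArg (· ^ (2 * m)) ht
    simp only [mul_pow, hs, mul_one, ← pow_mul] at this
    rw [show k * (2 * m) = q - 1 by rw [hm]; ring, ZMod.pow_card_sub_one_eq_one ht0] at this
    exact this.symm
  rw [ZMod.natCast_zmod_val]
  constructor <;> intro h
  · exact key 1 (one_pow _) (mul_left_cancel₀ hc' (by rw [h, mul_one]))
  · refine key (-1) ?_ (mul_left_cancel₀ hc' (by rw [h]; ring))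
    rw [pow_mul, neg_one_sq, one_pow]

/-- Sets without differences `c * t ^ k` gaining `2 ^ l` over the trivial size. -/
theorem exists_powerFree {k : ℕ} (hk : 2 ≤ k) {c : ℤ} (hc : c ≠ 0) :
    ∃ q : ℕ, 2 ≤ q ∧ ∀ l : ℕ, ∃ S : Finset ℕ, S ⊆ range (q ^ (k * l)) ∧
      2 ^ l * q ^ ((k - 1) * l) ≤ S.card ∧
      ∀ a ∈ S, ∀ b ∈ S, ∀ t : ℤ, t ≠ 0 → (a : ℤ) - b ≠ c * t ^ k := by
  obtain ⟨q, hq, hc', x, hx0, hxq, hx⟩ := exists_nonpower hk hc
  have := Fact.mk hq
  refine ⟨q, hq.two_le, fun l => ?_⟩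
  induction l with
  | zero =>
    refine ⟨{0}, by simp, by simp, fun a ha b hb t ht => ?_⟩
    rw [mem_singleton.1 ha, mem_singleton.1 hb]
    simpa using (mul_ne_zero hc (pow_ne_zero k ht)).symm
  | succ l ih =>
    obtain ⟨S, hS, hcard, hfree⟩ := ih
    set R := (({0, x} : Finset ℕ) ×ˢ range (q ^ (k - 1))).image fun p => p.1 + q * p.2 with hR
    have hqk : q ^ k = q * q ^ (k - 1) := (mul_pow_sub_one (by omega) q).symm
    have hRlt : ∀ r ∈ R, r < q ^ k := by
      intro r hr
      obtain ⟨⟨e, i⟩, hp, rfl⟩ := mem_image.1 hr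
      obtain ⟨he, hi⟩ := mem_product.1 hp
      simp only at he hi
      have he' : e < q := by
        rcases mem_insert.1 he with rfl | he
        · exact hq.pos
        · rw [mem_singleton.1 he]; exact hxq
      rw [mem_range] at hi
      rw [hqk]; simp only
      nlinarith [Nat.mul_le_mul_left q (Nat.succ_le_of_lt hi)]
    have hRmod : ∀ r ∈ R, (r : ZMod q) = 0 ∨ (r : ZMod q) = (x : ZMod q) := by
      intro r hr
      obtain ⟨⟨e, i⟩, hp, rfl⟩ := mem_image.1 hr
      simp only [mem_product, mem_insert, mem_singleton] at hp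
      rcases hp.1 with rfl | rfl <;> simp
    have hRcard : R.card = 2 * q ^ (k - 1) := by
      rw [card_image_of_injOn, card_product, card_range, card_pair (by omega : 0 ≠ x)]
      intro p hp p' hp' h
      simp only [coe_product, coe_insert, coe_singleton, Set.mem_prod, Set.mem_insert_iff,
        Set.mem_singleton_iff] at hp hp'
      simp only at h
      have e : p.1 < q := by rcases hp.1 with e | e <;> omega
      have e' : p'.1 < q := by rcases hp'.1 with e | e <;> omega
      have h1 := congrArg (· % q) h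
      simp only [Nat.add_mul_mod_self_left, Nat.mod_eq_of_lt e, Nat.mod_eq_of_lt e'] at h1
      exact Prod.ext h1 (Nat.eq_of_mul_eq_mul_left hq.pos (by omega))
    refine ⟨(R ×ˢ S).image fun p => p.1 + q ^ k * p.2, ?_, ?_, ?_⟩
    · intro a ha
      obtain ⟨⟨r, s⟩, hp, rfl⟩ := mem_image.1 ha
      obtain ⟨hr, hs⟩ := mem_product.1 hp
      have h2 := mem_range.1 (hS hs)
      rw [mem_range, Nat.mul_add_one, pow_add]
      have := hRlt r hr
      simp only
      nlinarith [Nat.mul_le_mul_left (q ^ k) (Nat.succ_le_of_lt h2)]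
    · rw [card_image_of_injOn, card_product, hRcard]
      · calc 2 ^ (l + 1) * q ^ ((k - 1) * (l + 1))
            = 2 * q ^ (k - 1) * (2 ^ l * q ^ ((k - 1) * l)) := by ring
          _ ≤ _ := Nat.mul_le_mul_left _ hcard
      · intro p hp p' hp' h
        simp only [coe_product, Set.mem_prod, mem_coe] at hp hp'
        simp only at h
        have e := hRlt _ hp.1
        have e' := hRlt _ hp'.1
        have h1 := congrArg (· % q ^ k) h
        simp only [Nat.add_mul_mod_self_left, Nat.mod_eq_of_lt e, Nat.mod_eq_of_lt e'] at h1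
        exact Prod.ext h1 (Nat.eq_of_mul_eq_mul_left (pow_pos hq.pos k) (by omega))
    · intro a ha b hb t ht heq
      obtain ⟨⟨r, s⟩, hp, rfl⟩ := mem_image.1 ha
      obtain ⟨⟨r', s'⟩, hp', rfl⟩ := mem_image.1 hb
      obtain ⟨hr, hs⟩ := mem_product.1 hp
      obtain ⟨hr', hs'⟩ := mem_product.1 hp'
      simp only [Nat.cast_add, Nat.cast_mul, Nat.cast_pow] at heq
      have hdvd : (q : ℤ) ∣ t := by
        rw [← ZMod.intCast_zmod_eq_zero_iff_dvd]
        by_contra htq
        have := congrArg (fun z : ℤ => (z : ZMod q)) heq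
        push_cast at this
        simp only [ZMod.natCast_self, zero_pow (by omega : k ≠ 0), zero_mul, add_zero] at this
        rcases hRmod r hr with h1 | h1 <;> rcases hRmod r' hr' with h2 | h2 <;>
          rw [h1, h2] at this
        · exact mul_ne_zero hc' (pow_ne_zero k htq) (by simpa using this.symm)
        · exact (hx t).2 (by simpa using this.symm)
        · exact (hx t).1 (by simpa using this.symm)
        · exact mul_ne_zero hc' (pow_ne_zero k htq) (by simpa using this.symm)
      obtain ⟨t', rfl⟩ := hdvd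
      rw [mul_pow] at heq
      have h1 : (q : ℤ) ^ k ∣ (r : ℤ) - r' :=
        ⟨c * t' ^ k - ((s : ℤ) - s'), by linear_combination heq⟩
      have hlt : |(r : ℤ) - r'| < (q : ℤ) ^ k := by
        have e1 : (r : ℤ) < (q : ℤ) ^ k := by exact_mod_cast hRlt r hr
        have e2 : (r' : ℤ) < (q : ℤ) ^ k := by exact_mod_cast hRlt r' hr'
        have := Int.natCast_nonneg r
        have := Int.natCast_nonneg r'
        rw [abs_lt]; omega
      have h2 := Int.eq_zero_of_abs_lt_dvd h1 hlt
      refine hfree s hs s' hs' t' (right_ne_zero_of_mul ht) ?_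
      refine mul_left_cancel₀ (pow_ne_zero k (show (q : ℤ) ≠ 0 by exact_mod_cast hq.ne_zero)) ?_
      linear_combination heq - h2

end Vale.Agent.P042.Power
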